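import Vale.Agent.P004H.H404.Join
import Vale.Agent.P004H.H742.BaseF
import Vale.Agent.P004H.H361.StMert
import Vale.Agent.P004H.H181.N1
import Vale.Agent.P004H.H2.Landau
import Vale.Agent.P004H.H86.FE
import Vale.Agent.P004H.H212.Mu
import Vale.Agent.P004H.H792.Pars

/-!
# P004H: analytic rank one for a positive proportion of the twists of every elliptic curve over `ℚ`
with the `j`-invariant of `X_0(11)`
-/

open scoped NumberTheorySymbols

namespace P004H

open P004G P004G.ML P004E Vale.Agent.P004H.H742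
open Vale.Agent.P004H (H792.a)

/-- Hasse's bound at all primes -/
theorem hasse_all (p : ℕ) (hp : p.Prime) : (H792.a p) ^ 2 ≤ 4 * p := by
  obtain ⟨-, -, a2, a3, -, -, -, -, -, -, -, a11, -, -⟩ := Vale.Agent.P004H.H792.a_table
  rcases eq_or_ne p 2 with rfl | h2
  · rw [a2]; norm_num
  rcases eq_or_ne p 3 with rfl | h3
  · rw [a3]; norm_num
  rcases eq_or_ne p 11 with rfl | h11
  · rw [a11]; norm_num
  have h4 : p ≠ 4 := by rintro rfl; exact absurd hp (by norm_num)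
  have := hp.two_le
  rw [coF.tr p hp h11]
  exact Vale.Agent.P004H.H666.hasse_cnt p hp (by omega) h11

/-- the coefficients of the twist by `44` up to sign -/
lemma ca_sq {n : ℕ} (hn : n.Coprime 22) : (tw H792.a 44 n) ^ 2 = (H792.a n) ^ 2 := by
  obtain ⟨h1, h2, h3⟩ := cop22 hn
  unfold tw
  rw [mul_pow, kron_sq_cop h3, mul_one]
  intro p hp hd h44
  have h5 : p ∣ 44 := by exact_mod_cast h44
  have h6 : p ∣ 22 := by
    have h7 : p ∣ 2 ^ 2 * 11 := by simpa using h5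
    rcases (Nat.Prime.dvd_mul hp).1 h7 with h8 | h8
    · exact (hp.dvd_of_dvd_pow h8).trans ⟨11, rfl⟩
    · exact h8.trans ⟨2, rfl⟩
  exact hp.one_lt.ne' (Nat.eq_one_of_dvd_coprimes hn hd h6)

/-- `StN0` -/
theorem stN0F : @StN0 (crv11 coF hasse_all) := by
  obtain ⟨C, hC, h⟩ := Vale.Agent.P004H.H792.sq_sum
  refine ⟨C + 1, by linarith, fun x hx => ?_⟩
  have h1 := h x hx
  have h2 : ∑ n ∈ Finset.Icc 1 ⌊x⌋₊, ((tw H792.a 44 n : ℤ) : ℝ) ^ 2 ≤
      ∑ n ∈ Finset.Icc 1 ⌊x⌋₊, ((H792.a n : ℤ) : ℝ) ^ 2 := by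
    refine Finset.sum_le_sum fun n _ => ?_
    by_cases hn : n.Coprime 22
    · have := ca_sq hn
      have h3 : ((tw H792.a 44 n : ℤ) : ℝ) ^ 2 = ((H792.a n : ℤ) : ℝ) ^ 2 := by exact_mod_cast this
      exact h3.le
    · rw [tw44_bad coF hn]
      norm_num
      positivity
  refine h2.trans (h1.trans ?_)
  have : 0 ≤ x ^ 2 := sq_nonneg x
  nlinarith

lemma a11_sq (n : ℕ) : H792.a (11 * n) ^ 2 = H792.a n ^ 2 := by
  obtain ⟨-, -, -, -, -, -, -, -, -, -, -, a11, -, -⟩ := Vale.Agent.P004H.H792.a_table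
  rw [rels.2.2.2.1 n, a11, one_mul]

theorem b1F : Vale.Agent.P004H.H361.B1 H792.a := by
  obtain ⟨c, hc, h⟩ := Vale.Agent.P004H.H86.fe11
  exact Vale.Agent.P004H.H2.B1_of_FE Vale.Agent.P004H.H86.dat11 h hc a11_sq

/-- `StMert` -/
theorem stMertF : @StMert (crv11 coF hasse_all) :=
  @Vale.Agent.P004H.H361.stMert_of (crv11 coF hasse_all) ⟨1, rfl⟩ H792.a
    ⟨coF.one, coF.mul, fun p hp h11 k => coF.good p hp h11 k, fun p hp _ => hasse_all p hp⟩
    (fun _ hn => ca_sq hn) b1F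

/-- `StN1w` -/
theorem stN1F : @StN1w (crv11 coF hasse_all) := by
  obtain ⟨c, hc, h⟩ := Vale.Agent.P004H.H86.fe11
  obtain ⟨V, -, C, δ, hδ, hB⟩ := Vale.Agent.P004H.H2.landau Vale.Agent.P004H.H86.dat11 h hc
  exact @Vale.Agent.P004H.H181.n1w (crv11 coF hasse_all) H792.a
    ⟨coF.one, coF.mul, fun p hp h11 k => coF.good p hp h11 k, fun k => by rw [coF.el]; norm_num⟩
    ⟨2, rfl⟩ (fun _ hn => ca_sq hn) V C δ hδ hB Vale.Agent.P004H.H212.mu_div

open scoped Classical in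
/-- **Analytic rank exactly one** for a positive proportion of the quadratic twists of
`y² = x³ - 13392 d² x - 1080432 d³`, `d ≠ 0`: every elliptic curve over `ℚ` with the
`j`-invariant of `X_0(11)`. -/
theorem rank_oneF {d : ℤ} (hd : d ≠ 0) : ∃ c : ℝ, 0 < c ∧ ∃ X₀ : ℕ, ∀ X : ℕ, X₀ ≤ X →
      c * X ≤ (((P004.Fam X).filter
        (fun D => aRk (-13392 * d ^ 2) (-1080432 * d ^ 3) D = 1)).card : ℝ) :=
  rank_one_all coF hasse_all r7F stMertF stN0F stN1F hd

end P004H
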