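import Vale.Agent.P004H.H404.Rank11
import Vale.Agent.P004H.H404.ModW
import Vale.Agent.P004H.H871.FE11
import Vale.Agent.P004H.H641.Par

/-!
# P004H: the inputs of `rank_one_d` for the form `eta(z)² eta(11 z)²`
-/

open scoped NumberTheorySymbols

namespace P004H

open P004G P004G.ML P004E Vale.Agent.P004H.H742
open Vale.Agent.P004H (H792.a)

/-- the functional equations -/
theorem fe11_of (hL : ∀ D : ℤ, Fund1 D → ∀ n : ℕ, LT D n = H792.a n * kron D n) :
    FE11 H792.a where
  out D hD h := by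
    refine ⟨(Vale.Agent.P004H.H871.root D : ℤ), ?_⟩
    have h1 := Vale.Agent.P004H.H871.feq hD (hL D hD)
    have e1 : LT D = tw H792.a D := funext (hL D hD)
    rw [e1] at h1
    unfold Vale.Agent.P004H.H871.cond at h1
    rw [if_neg h] at h1
    exact h1
  inn D hD h := by
    have h1 := Vale.Agent.P004H.H871.feq hD (hL D hD)
    have e1 : LT D = tw H792.a D := funext (hL D hD)
    have hD0 : D ≠ 0 := by
      rintro rfl
      rcases hD with h0 | ⟨-, ⟨h0, -⟩ | ⟨d, h0, h3, -⟩⟩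
      · norm_num at h0
      · norm_num at h0
      · omega
    have e2 : Vale.Agent.P004H.H871.root D = -D.sign := by
      unfold Vale.Agent.P004H.H871.root
      rw [if_pos h]
      rcases lt_or_gt_of_ne hD0 with h3 | h3
      · rw [if_neg (by omega), Int.sign_eq_neg_one_of_neg h3]; norm_num
      · rw [if_pos h3, Int.sign_eq_one_of_pos h3]; norm_num
    rw [e1, e2] at h1
    unfold Vale.Agent.P004H.H871.cond at h1
    rw [if_pos h] at h1
    push_cast at h1
    exact h1

/-- isomorphic twists have the same `L`-function -/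
theorem stIso : StIso := by
  intro x y u v hx hy hu hv h n
  have key : ∀ z w : ℤ, z ≠ 0 → w ≠ 0 →
      LA (-13392 * z ^ 2) (-1080432 * z ^ 3) n =
        LA (-13392 * (z * w ^ 2) ^ 2) (-1080432 * (z * w ^ 2) ^ 3) n := by
    intro z w hz hw
    have hd : 4 * (-13392 * z ^ 2) ^ 3 + 27 * (-1080432 * z ^ 3) ^ 2 ≠ 0 := by
      have e : 4 * (-13392 * z ^ 2) ^ 3 + 27 * (-1080432 * z ^ 3) ^ 2 =
          (4 * (-13392) ^ 3 + 27 * (-1080432) ^ 2) * z ^ 6 := by ring
      rw [e]
      exact mul_ne_zero (by norm_num) (pow_ne_zero _ hz)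
    have h1 := Vale.Agent.P004H.H641.LA_scale hd hw n
    have e1 : -13392 * z ^ 2 * w ^ 4 = -13392 * (z * w ^ 2) ^ 2 := by ring
    have e2 : -1080432 * z ^ 3 * w ^ 6 = -1080432 * (z * w ^ 2) ^ 3 := by ring
    rw [e1, e2] at h1
    exact h1.symm
  rw [key x u hx hu, key y v hy hv, h]

/-- `StHlam` -/
theorem stHlam {A : ℕ → ℤ} (hA : Co A) (hH : ∀ p : ℕ, p.Prime → (A p) ^ 2 ≤ 4 * p)
    (h3 : A 3 = -1) : @StHlam (crv11 hA hH) := by
  intro p hp hb
  change 10 * |((tw A 44 p : ℤ) : ℝ)| ≤ 9 * (p : ℝ)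
  have h11 : p ≠ 11 := by rintro rfl; exact hb ⟨2, rfl⟩
  have h2 : p ≠ 2 := by rintro rfl; exact hb ⟨11, rfl⟩
  have hnd : ¬ (p : ℤ) ∣ 44 := by
    intro h
    have h3 : p ∣ 44 := by exact_mod_cast h
    have h4 : p ∣ 2 ^ 2 * 11 := by simpa using h3
    rcases (Nat.Prime.dvd_mul hp).1 h4 with h5 | h5
    · exact h2 ((Nat.prime_dvd_prime_iff_eq hp Nat.prime_two).1 (hp.dvd_of_dvd_pow h5))
    · exact h11 ((Nat.prime_dvd_prime_iff_eq hp (by norm_num)).1 h5)
  have hk := kron_prime_sq hp hnd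
  have habs : |tw A 44 p| = |A p| := by
    unfold tw
    rw [abs_mul]
    have h5 : |kron 44 p| = 1 := by
      have h6 := sq_abs (kron 44 p)
      rw [hk] at h6
      have h7 := abs_nonneg (kron 44 p)
      nlinarith
    rw [h5, mul_one]
  have key : 10 * |A p| ≤ 9 * (p : ℤ) := by
    by_cases hp3 : p = 3
    · subst hp3
      rw [h3]
      norm_num
    · have hp5 : 5 ≤ p := by
        have := hp.two_le
        have h4 : p ≠ 4 := by rintro rfl; exact absurd hp (by norm_num)
        omega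
      have h6 := hH p hp
      have h7 : (5 : ℤ) ≤ p := by exact_mod_cast hp5
      have h8 : (10 * |A p|) ^ 2 ≤ (9 * (p : ℤ)) ^ 2 := by
        rw [mul_pow, sq_abs]
        nlinarith
      exact le_of_sq_le_sq h8 (by positivity) |> fun h => h
  rw [← Int.cast_abs, habs]
  exact_mod_cast key

open scoped Classical in
/-- **Analytic rank exactly one** for a positive proportion of the quadratic twists of every
elliptic curve with `j = j(X_0(11))` -/
theorem rank_one_all (hA : Co H792.a) (hH : ∀ p : ℕ, p.Prime → (H792.a p) ^ 2 ≤ 4 * p)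
    (hL : ∀ D : ℤ, Fund1 D → ∀ n : ℕ, LT D n = H792.a n * kron D n)
    (hM : @StMert (crv11 hA hH)) (hN0 : @StN0 (crv11 hA hH)) (hN1 : @StN1w (crv11 hA hH))
    {d : ℤ} (hd : d ≠ 0) :
    ∃ c : ℝ, 0 < c ∧ ∃ X₀ : ℕ, ∀ X : ℕ, X₀ ≤ X →
      c * X ≤ (((P004.Fam X).filter
        (fun D => aRk (-13392 * d ^ 2) (-1080432 * d ^ 3) D = 1)).card : ℝ) := by
  have h3 : H792.a 3 = -1 := by
    have := Vale.Agent.P004H.H792.a_table
    tauto
  have hF := fe11_of hL
  exact rank_one_d hA hH hL hF stIso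
    (@modulesW (crv11 hA hH) (tf11 hA hH hF) hM hN0 hN1 (stHlam hA hH h3)) hd

end P004H
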